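import Crest.Agent.Lib.Bc.Q4I.Cert.P12
/-! Generated by split.py (helper88): the check, glued from the pieces. -/
set_option autoImplicit false
set_option Elab.async false
namespace Crest.Agent.Lib.Bc.Q4I.Cert

open Crest.Agent.Lib.Bc.BernCert

/-- the whole tree -/
def T : PT := (PT.X 0 3 (PT.Y 0 3 (PT.X 0 2 (PT.Y 0 2 (PT.X 0 1 (PT.Y 0 1 (PT.X 0 3 (PT.Y 0 3 (PT.X 0 2 (PT.Y 0 2 (PT.X 0 3 (PT.Y 0 3 (PT.X 0 3 (PT.Y 0 3 (PT.X 0 2 (PT.Y 0 2 (PT.X 0 1 (PT.Y 0 1 (PT.X 0 3 (PT.Y 0 3 (PT.X 0 2 (PT.Y 0 2 (PT.X 0 3 (PT.Y 0 3 (PT.X 0 1 (PT.Y 0 1 (PT.X 0 2 T_s0 T_s1) T_s2) T_s3) T_s4) T_s5) T_s6) T_s7) T_s8) T_s9) T_s10) T_s11) T_s12) T_s13) T_s14) T_s15) T_s16) T_s17) T_s18) (PT.Y 0 2 T_s19 T_s20)) (PT.X 0 2 T_s21 T_s22)) (PT.Y 0 3 (PT.Y 0 2 T_s23 T_s24) T_s25)) (PT.X 0 3 T_s26 (PT.Y 1 3 T_s27 T_s28))) (PT.Y 0 1 (PT.Y 0 3 T_s29 (PT.X 1 3 T_s30 T_s31)) (PT.X 1 3 (PT.Y 1 3 (PT.X 1 2 (PT.Y 1 2 (PT.X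 0 3 T_s32 (PT.Y 0 3 T_s33 (PT.X 1 3 T_s34 T_s35))) T_s36) T_s37) T_s38) (PT.Y 1 3 T_s39 T_s40)))) (PT.X 0 1 (PT.X 0 3 (PT.X 0 2 (PT.X 0 3 T_s41 T_s42) T_s43) (PT.Y 1 3 T_s44 T_s45)) (PT.X 1 3 (PT.Y 1 3 (PT.Y 1 2 (PT.X 1 2 (PT.Y 0 1 T_s46 (PT.X 0 3 T_s47 (PT.X 1 3 T_s48 T_s49))) T_s50) T_s51) T_s52) (PT.Y 1 3 T_s53 T_s54)))) (PT.Y 0 2 (PT.Y 0 1 (PT.Y 0 3 (PT.Y 0 2 (PT.Y 0 3 T_s55 T_s56) T_s57) (PT.X 1 3 T_s58 T_s59)) (PT.X 1 3 (PT.Y 1 3 (PT.X 1 2 (PT.X 0 1 T_s60 (PT.Y 1 2 (PT.Y 0 3 T_s61 (PT.X 1 3 T_s62 T_s63)) T_s64)) T_s65) T_s66) T_s67)) (PT.X 1 3 (PT.Y 1 3 (PT.X 1 2 (PT.Y 1 2 (PT.X 0 1 T_s68 (PT.Y 0 1 T_s69 (PT.X 1 3 T_s70 T_s71))) T_s72) T_s73) T_s74) T_s75))) (PT.X 0 2 (PT.X 0 1 (PT.X 0 3 (PT.X 0 2 (PT.X 0 3 (PT.Y 1 3 T_s76 (PT.X 0 3 (PT.X 0 2 (PT.X 0 1 T_s77 T_s78) T_s79) T_s80)) (PT.Y 1 3 T_s81 T_s82)) (PT.Y 1 3 T_s83 T_s84)) (PT.Y 1 3 (PT.Y 0 1 T_s85 T_s86) T_s87)) (PT.Y 1 3 (PT.X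 1 3 (PT.Y 0 1 T_s88 (PT.Y 1 2 (PT.X 1 2 (PT.Y 1 3 (PT.X 0 3 T_s89 (PT.X 1 3 T_s90 T_s91)) T_s92) T_s93) T_s94)) (PT.Y 0 1 T_s95 T_s96)) T_s97)) (PT.Y 1 3 (PT.X 1 3 (PT.Y 0 1 T_s98 (PT.X 1 2 (PT.Y 1 2 (PT.X 0 1 T_s99 (PT.Y 1 3 (PT.X 1 3 T_s100 T_s101) T_s102)) T_s103) T_s104)) T_s105) T_s106))) (PT.Y 0 3 (PT.Y 0 2 (PT.Y 0 1 (PT.Y 0 3 (PT.Y 0 2 (PT.Y 0 3 (PT.X 1 3 T_s107 (PT.Y 0 3 (PT.Y 0 2 (PT.Y 0 1 T_s108 T_s109) T_s110) T_s111)) (PT.X 1 3 T_s112 T_s113)) (PT.X 1 3 T_s114 T_s115)) (PT.X 1 3 (PT.X 0 1 T_s116 T_s117) T_s118)) (PT.X 1 3 (PT.X 0 1 T_s119 (PT.Y 1 3 (PT.X 1 2 (PT.Y 1 2 (PT.X 1 3 (PT.Y 0 3 T_s120 (PT.X 0 1 T_s121 T_s122)) T_s123) T_s124) T_s125) T_s126)) T_s127)) (PT.X 1 3 (PT.X 0 1 T_s128 (PT.Y 1 3 (PT.X 1 2 (PT.Y 1 2 (PT.Y 0 1 T_s129 (PT.X 1 3 (PT.X 0 1 T_s130 T_s131) T_s132)) T_s133) T_s134) T_s135)) T_s136)) (PT.X 1 3 (PT.Y 1 3 (PT.X 0 1 T_s137 (PT.Y 0 1 T_s138 (PT.X 1 2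 (PT.Y 1 2 (PT.X 1 3 (PT.Y 1 3 (PT.X 0 1 T_s139 T_s140) T_s141) T_s142) T_s143) T_s144))) T_s145) T_s146)))

set_option maxRecDepth 1000000 in
theorem chk : check cfg T C4 C4 = true :=
  check_of_sub (by decide +kernel) (by decide +kernel)
    (subCheck_X (by decide) (subCheck_Y (by decide) (subCheck_X (by decide) (subCheck_Y (by decide) (subCheck_X (by decide) (subCheck_Y (by decide) (subCheck_X (by decide) (subCheck_Y (by decide) (subCheck_X (by decide) (subCheck_Y (by decide) (subCheck_X (by decide) (subCheck_Y (by decide) (subCheck_X (by decide) (subCheck_Y (by decide) (subCheck_X (by decide) (subCheck_Y (by decide) (subCheck_X (by decide) (subCheck_Y (by decide) (subCheck_X (by decide) (subCheck_Y (by decide) (subCheck_X (by decide) (subCheck_Y (by decide) (subCheck_X (by decide) (subCheck_Y (by decide) (subCheck_X (by decide) (subCheck_Y (by decide) (subCheck_X (by decide) s0 s1)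 s2) s3) s4) s5) s6) s7) s8) s9) s10) s11) s12) s13) s14) s15) s16) s17) s18) (subCheck_Y (by decide) s19 s20)) (subCheck_X (by decide) s21 s22)) (subCheck_Y (by decide) (subCheck_Y (by decide) s23 s24) s25)) (subCheck_X (by decide) s26 (subCheck_Y (by decide) s27 s28))) (subCheck_Y (by decide) (subCheck_Y (by decide) s29 (subCheck_X (by decide) s30 s31)) (subCheck_X (by decide) (subCheck_Y (by decide) (subCheck_X (by decide) (subCheck_Y (by decide) (subCheck_X (by decide) s32 (subCheck_Y (by decide) s33 (subCheck_X (by decide) s34 s35))) s36) s37) s38) (subCheck_Y (by decide) s39 s40)))) (subCheck_X (by decide) (subCheck_X (by decide) (subCheck_X (by decide) (subCheck_X (by decide) s41 s42) s43) (subCheck_Y (by decide) s44 s45)) (subCheck_X (by decide) (subCheck_Y (by decide) (subCheck_Y (by decide) (subCheck_X (by decide) (subCheck_Y (by decide) s46 (subCheck_X (by decide) s47 (subCheck_X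 (by decide) s48 s49))) s50) s51) s52) (subCheck_Y (by decide) s53 s54)))) (subCheck_Y (by decide) (subCheck_Y (by decide) (subCheck_Y (by decide) (subCheck_Y (by decide) (subCheck_Y (by decide) s55 s56) s57) (subCheck_X (by decide) s58 s59)) (subCheck_X (by decide) (subCheck_Y (by decide) (subCheck_X (by decide) (subCheck_X (by decide) s60 (subCheck_Y (by decide) (subCheck_Y (by decide) s61 (subCheck_X (by decide) s62 s63)) s64)) s65) s66) s67)) (subCheck_X (by decide) (subCheck_Y (by decide) (subCheck_X (by decide) (subCheck_Y (by decide) (subCheck_X (by decide) s68 (subCheck_Y (by decide) s69 (subCheck_X (by decide) s70 s71))) s72) s73) s74) s75))) (subCheck_X (by decide) (subCheck_X (by decide) (subCheck_X (by decide) (subCheck_X (by decide) (subCheck_X (by decide) (subCheck_Y (by decide) s76 (subCheck_X (by decide) (subCheck_X (by decide) (subCheck_X (by decide) s77 s78) s79) s80))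 (subCheck_Y (by decide) s81 s82)) (subCheck_Y (by decide) s83 s84)) (subCheck_Y (by decide) (subCheck_Y (by decide) s85 s86) s87)) (subCheck_Y (by decide) (subCheck_X (by decide) (subCheck_Y (by decide) s88 (subCheck_Y (by decide) (subCheck_X (by decide) (subCheck_Y (by decide) (subCheck_X (by decide) s89 (subCheck_X (by decide) s90 s91)) s92) s93) s94)) (subCheck_Y (by decide) s95 s96)) s97)) (subCheck_Y (by decide) (subCheck_X (by decide) (subCheck_Y (by decide) s98 (subCheck_X (by decide) (subCheck_Y (by decide) (subCheck_X (by decide) s99 (subCheck_Y (by decide) (subCheck_X (by decide) s100 s101) s102)) s103) s104)) s105) s106))) (subCheck_Y (by decide) (subCheck_Y (by decide) (subCheck_Y (by decide) (subCheck_Y (by decide) (subCheck_Y (by decide) (subCheck_Y (by decide) (subCheck_X (by decide) s107 (subCheck_Y (by decide) (subCheck_Y (by decide) (subCheck_Y (by decide) s108 s109)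 s110) s111)) (subCheck_X (by decide) s112 s113)) (subCheck_X (by decide) s114 s115)) (subCheck_X (by decide) (subCheck_X (by decide) s116 s117) s118)) (subCheck_X (by decide) (subCheck_X (by decide) s119 (subCheck_Y (by decide) (subCheck_X (by decide) (subCheck_Y (by decide) (subCheck_X (by decide) (subCheck_Y (by decide) s120 (subCheck_X (by decide) s121 s122)) s123) s124) s125) s126)) s127)) (subCheck_X (by decide) (subCheck_X (by decide) s128 (subCheck_Y (by decide) (subCheck_X (by decide) (subCheck_Y (by decide) (subCheck_Y (by decide) s129 (subCheck_X (by decide) (subCheck_X (by decide) s130 s131) s132)) s133) s134) s135)) s136)) (subCheck_X (by decide) (subCheck_Y (by decide) (subCheck_X (by decide) s137 (subCheck_Y (by decide) s138 (subCheck_X (by decide) (subCheck_Y (by decide) (subCheck_X (by decide) (subCheck_Y (by decide) (subCheck_X (by decide) s139 s140) s141) s142) s143)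 s144))) s145) s146)))

end Crest.Agent.Lib.Bc.Q4I.Cert
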