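import Crest.Agent.Lib.Bc.Q4I.Cert.Data
/-! Generated by split.py (helper88): kernel checks of subtrees. -/
set_option autoImplicit false
set_option Elab.async false
namespace Crest.Agent.Lib.Bc.Q4I.Cert

open Crest.Agent.Lib.Bc.BernCert

/-- subtree with 1 leaf pairs -/
def T_s0 : PT := PT.L

set_option maxRecDepth 1000000 in
theorem s0 : subCheck cfg T_s0 (child (child (child (child (child (child (child (child (child (child (child (child (child (child C4 0 3) 0 2) 0 1) 0 3) 0 2) 0 3) 0 3) 0 2) 0 1) 0 3) 0 2) 0 3) 0 1) 0 2) (child (child (child (child (child (child (child (child (child (child (child (child (child C4 0 3) 0 2) 0 1) 0 3) 0 2) 0 3) 0 3) 0 2) 0 1) 0 3) 0 2) 0 3) 0 1) = true := by decide +kernel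

/-- subtree with 1 leaf pairs -/
def T_s1 : PT := PT.L

set_option maxRecDepth 1000000 in
theorem s1 : subCheck cfg T_s1 (child (child (child (child (child (child (child (child (child (child (child (child (child (child C4 0 3) 0 2) 0 1) 0 3) 0 2) 0 3) 0 3) 0 2) 0 1) 0 3) 0 2) 0 3) 0 1) 2 0) (child (child (child (child (child (child (child (child (child (child (child (child (child C4 0 3) 0 2) 0 1) 0 3) 0 2) 0 3) 0 3) 0 2) 0 1) 0 3) 0 2) 0 3) 0 1) = true := by decide +kernel

/-- subtree with 1 leaf pairs -/
def T_s2 : PT := PT.L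

set_option maxRecDepth 1000000 in
theorem s2 : subCheck cfg T_s2 (child (child (child (child (child (child (child (child (child (child (child (child (child C4 0 3) 0 2) 0 1) 0 3) 0 2) 0 3) 0 3) 0 2) 0 1) 0 3) 0 2) 0 3) 0 1) (child (child (child (child (child (child (child (child (child (child (child (child (child C4 0 3) 0 2) 0 1) 0 3) 0 2) 0 3) 0 3) 0 2) 0 1) 0 3) 0 2) 0 3) 1 0) = true := by decide +kernel

/-- subtree with 1 leaf pairs -/
def T_s3 : PT := PT.L

set_option maxRecDepth 1000000 in
theorem s3 : subCheck cfg T_s3 (child (child (child (child (child (child (child (child (child (child (child (child (child C4 0 3) 0 2) 0 1) 0 3) 0 2) 0 3) 0 3) 0 2) 0 1) 0 3) 0 2) 0 3) 1 0) (child (child (child (child (child (child (child (child (child (child (child (child C4 0 3) 0 2) 0 1) 0 3) 0 2) 0 3) 0 3) 0 2) 0 1) 0 3) 0 2) 0 3) = true := by decide +kernel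

/-- subtree with 1 leaf pairs -/
def T_s4 : PT := PT.L

set_option maxRecDepth 1000000 in
theorem s4 : subCheck cfg T_s4 (child (child (child (child (child (child (child (child (child (child (child (child C4 0 3) 0 2) 0 1) 0 3) 0 2) 0 3) 0 3) 0 2) 0 1) 0 3) 0 2) 0 3) (child (child (child (child (child (child (child (child (child (child (child (child C4 0 3) 0 2) 0 1) 0 3) 0 2) 0 3) 0 3) 0 2) 0 1) 0 3) 0 2) 3 0) = true := by decide +kernel

/-- subtree with 1 leaf pairs -/
def T_s5 : PT := PT.L

set_option maxRecDepth 1000000 in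
theorem s5 : subCheck cfg T_s5 (child (child (child (child (child (child (child (child (child (child (child (child C4 0 3) 0 2) 0 1) 0 3) 0 2) 0 3) 0 3) 0 2) 0 1) 0 3) 0 2) 3 0) (child (child (child (child (child (child (child (child (child (child (child C4 0 3) 0 2) 0 1) 0 3) 0 2) 0 3) 0 3) 0 2) 0 1) 0 3) 0 2) = true := by decide +kernel

/-- subtree with 1 leaf pairs -/
def T_s6 : PT := PT.L

set_option maxRecDepth 1000000 in
theorem s6 : subCheck cfg T_s6 (child (child (child (child (child (child (child (child (child (child (child C4 0 3) 0 2) 0 1) 0 3) 0 2) 0 3) 0 3) 0 2) 0 1) 0 3) 0 2) (child (child (child (child (child (child (child (child (child (child (child C4 0 3) 0 2) 0 1) 0 3) 0 2) 0 3) 0 3) 0 2) 0 1) 0 3) 2 0) = true := by decide +kernel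

/-- subtree with 1 leaf pairs -/
def T_s7 : PT := PT.L

set_option maxRecDepth 1000000 in
theorem s7 : subCheck cfg T_s7 (child (child (child (child (child (child (child (child (child (child (child C4 0 3) 0 2) 0 1) 0 3) 0 2) 0 3) 0 3) 0 2) 0 1) 0 3) 2 0) (child (child (child (child (child (child (child (child (child (child C4 0 3) 0 2) 0 1) 0 3) 0 2) 0 3) 0 3) 0 2) 0 1) 0 3) = true := by decide +kernel

/-- subtree with 1 leaf pairs -/
def T_s8 : PT := PT.L

set_option maxRecDepth 1000000 in
theorem s8 : subCheck cfg T_s8 (child (child (child (child (child (child (child (child (child (child C4 0 3) 0 2) 0 1) 0 3) 0 2) 0 3) 0 3) 0 2) 0 1) 0 3) (child (child (child (child (child (child (child (child (child (child C4 0 3) 0 2) 0 1) 0 3) 0 2) 0 3) 0 3) 0 2) 0 1) 3 0) = true := by decide +kernel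

/-- subtree with 1 leaf pairs -/
def T_s9 : PT := PT.L

set_option maxRecDepth 1000000 in
theorem s9 : subCheck cfg T_s9 (child (child (child (child (child (child (child (child (child (child C4 0 3) 0 2) 0 1) 0 3) 0 2) 0 3) 0 3) 0 2) 0 1) 3 0) (child (child (child (child (child (child (child (child (child C4 0 3) 0 2) 0 1) 0 3) 0 2) 0 3) 0 3) 0 2) 0 1) = true := by decide +kernel

/-- subtree with 1 leaf pairs -/
def T_s10 : PT := PT.L

set_option maxRecDepth 1000000 in
theorem s10 : subCheck cfg T_s10 (child (child (child (child (child (child (child (child (child C4 0 3) 0 2) 0 1) 0 3) 0 2) 0 3) 0 3) 0 2) 0 1) (child (child (child (child (child (child (child (child (child C4 0 3) 0 2) 0 1) 0 3) 0 2) 0 3) 0 3) 0 2) 1 0) = true := by decide +kernel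

/-- subtree with 1 leaf pairs -/
def T_s11 : PT := PT.L

set_option maxRecDepth 1000000 in
theorem s11 : subCheck cfg T_s11 (child (child (child (child (child (child (child (child (child C4 0 3) 0 2) 0 1) 0 3) 0 2) 0 3) 0 3) 0 2) 1 0) (child (child (child (child (child (child (child (child C4 0 3) 0 2) 0 1) 0 3) 0 2) 0 3) 0 3) 0 2) = true := by decide +kernel

end Crest.Agent.Lib.Bc.Q4I.Cert
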