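import Crest.Agent.Lib.Bc.Q4I.Cert.P0
/-! Generated by split.py (helper88): kernel checks of subtrees. -/
set_option autoImplicit false
set_option Elab.async false
namespace Crest.Agent.Lib.Bc.Q4I.Cert

open Crest.Agent.Lib.Bc.BernCert

/-- subtree with 1 leaf pairs -/
def T_s12 : PT := PT.L

set_option maxRecDepth 1000000 in
theorem s12 : subCheck cfg T_s12 (child (child (child (child (child (child (child (child C4 0 3) 0 2) 0 1) 0 3) 0 2) 0 3) 0 3) 0 2) (child (child (child (child (child (child (child (child C4 0 3) 0 2) 0 1) 0 3) 0 2) 0 3) 0 3) 2 0) = true := by decide +kernel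

/-- subtree with 1 leaf pairs -/
def T_s13 : PT := PT.L

set_option maxRecDepth 1000000 in
theorem s13 : subCheck cfg T_s13 (child (child (child (child (child (child (child (child C4 0 3) 0 2) 0 1) 0 3) 0 2) 0 3) 0 3) 2 0) (child (child (child (child (child (child (child C4 0 3) 0 2) 0 1) 0 3) 0 2) 0 3) 0 3) = true := by decide +kernel

/-- subtree with 1 leaf pairs -/
def T_s14 : PT := PT.L

set_option maxRecDepth 1000000 in
theorem s14 : subCheck cfg T_s14 (child (child (child (child (child (child (child C4 0 3) 0 2) 0 1) 0 3) 0 2) 0 3) 0 3) (child (child (child (child (child (child (child C4 0 3) 0 2) 0 1) 0 3) 0 2) 0 3) 3 0) = true := by decide +kernel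

/-- subtree with 1 leaf pairs -/
def T_s15 : PT := PT.L

set_option maxRecDepth 1000000 in
theorem s15 : subCheck cfg T_s15 (child (child (child (child (child (child (child C4 0 3) 0 2) 0 1) 0 3) 0 2) 0 3) 3 0) (child (child (child (child (child (child C4 0 3) 0 2) 0 1) 0 3) 0 2) 0 3) = true := by decide +kernel

/-- subtree with 1 leaf pairs -/
def T_s16 : PT := PT.L

set_option maxRecDepth 1000000 in
theorem s16 : subCheck cfg T_s16 (child (child (child (child (child (child C4 0 3) 0 2) 0 1) 0 3) 0 2) 0 3) (child (child (child (child (child (child C4 0 3) 0 2) 0 1) 0 3) 0 2) 3 0) = true := by decide +kernel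

/-- subtree with 1 leaf pairs -/
def T_s17 : PT := PT.L

set_option maxRecDepth 1000000 in
theorem s17 : subCheck cfg T_s17 (child (child (child (child (child (child C4 0 3) 0 2) 0 1) 0 3) 0 2) 3 0) (child (child (child (child (child C4 0 3) 0 2) 0 1) 0 3) 0 2) = true := by decide +kernel

/-- subtree with 1 leaf pairs -/
def T_s18 : PT := PT.L

set_option maxRecDepth 1000000 in
theorem s18 : subCheck cfg T_s18 (child (child (child (child (child C4 0 3) 0 2) 0 1) 0 3) 0 2) (child (child (child (child (child C4 0 3) 0 2) 0 1) 0 3) 2 0) = true := by decide +kernel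

/-- subtree with 1 leaf pairs -/
def T_s19 : PT := PT.L

set_option maxRecDepth 1000000 in
theorem s19 : subCheck cfg T_s19 (child (child (child (child (child C4 0 3) 0 2) 0 1) 0 3) 2 0) (child (child (child (child (child C4 0 3) 0 2) 0 1) 0 3) 0 2) = true := by decide +kernel

/-- subtree with 1 leaf pairs -/
def T_s20 : PT := PT.L

set_option maxRecDepth 1000000 in
theorem s20 : subCheck cfg T_s20 (child (child (child (child (child C4 0 3) 0 2) 0 1) 0 3) 2 0) (child (child (child (child (child C4 0 3) 0 2) 0 1) 0 3) 2 0) = true := by decide +kernel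

/-- subtree with 1 leaf pairs -/
def T_s21 : PT := PT.L

set_option maxRecDepth 1000000 in
theorem s21 : subCheck cfg T_s21 (child (child (child (child (child C4 0 3) 0 2) 0 1) 0 3) 0 2) (child (child (child (child C4 0 3) 0 2) 0 1) 3 0) = true := by decide +kernel

/-- subtree with 1 leaf pairs -/
def T_s22 : PT := PT.L

set_option maxRecDepth 1000000 in
theorem s22 : subCheck cfg T_s22 (child (child (child (child (child C4 0 3) 0 2) 0 1) 0 3) 2 0) (child (child (child (child C4 0 3) 0 2) 0 1) 3 0) = true := by decide +kernel

/-- subtree with 1 leaf pairs -/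
def T_s23 : PT := PT.L

set_option maxRecDepth 1000000 in
theorem s23 : subCheck cfg T_s23 (child (child (child (child C4 0 3) 0 2) 0 1) 3 0) (child (child (child (child (child C4 0 3) 0 2) 0 1) 0 3) 0 2) = true := by decide +kernel

end Crest.Agent.Lib.Bc.Q4I.Cert
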